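import Vale.Agent.P252G.Div.Jet

/-!
Orthogonal changes of frame leave the forms invariant; adapted frames exist.
-/

open Finset Matrix

noncomputable section

namespace Vale.Agent.P252G.Cert

open Vale.Agent.P252G

variable {n : ℕ}

/-- rotated covector -/
def rot (R : Matrix (Fin n) (Fin n) ℝ) (a : Fin n → ℝ) : Fin n → ℝ := R *ᵥ a

/-- rotated bilinear form -/
def rot₂ (R : Matrix (Fin n) (Fin n) ℝ) (S : Fin n → Fin n → ℝ) : Fin n → Fin n → ℝ :=
  R * (Matrix.of S) * Rᵀ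

/-- rotated jet -/
def rotJ (R : Matrix (Fin n) (Fin n) ℝ) (J : Jet n) : Jet n where
  L := rot R J.L
  U := rot R J.U
  T := J.T
  M := rot₂ R J.M
  A := rot₂ R J.A
  B := rot₂ R J.B

lemma app_eq (S : Fin n → Fin n → ℝ) (a : Fin n → ℝ) : app S a = Matrix.of S *ᵥ a := rfl

lemma dot_eq (a b : Fin n → ℝ) : dot a b = a ⬝ᵥ b := rfl

lemma dot₂_eq (S T : Fin n → Fin n → ℝ) :
    dot₂ S T = (Matrix.of S * (Matrix.of T)ᵀ).trace := by
  simp [dot₂, Matrix.trace, Matrix.mul_apply]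

variable {R : Matrix (Fin n) (Fin n) ℝ} (hR : R * Rᵀ = 1)

include hR

lemma dot_rot (a b : Fin n → ℝ) : dot (rot R a) (rot R b) = dot a b := by
  rw [dot_eq, dot_eq, rot, rot, Matrix.dotProduct_mulVec, ← Matrix.mulVec_transpose,
    Matrix.mulVec_mulVec, mul_eq_one_comm.1 hR, Matrix.one_mulVec]

lemma app_rot (S : Fin n → Fin n → ℝ) (a : Fin n → ℝ) :
    app (rot₂ R S) (rot R a) = rot R (app S a) := by
  rw [app_eq, app_eq, rot, rot, rot₂]
  show (R * Matrix.of S * Rᵀ) *ᵥ (R *ᵥ a) = _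
  rw [Matrix.mulVec_mulVec, Matrix.mul_assoc, mul_eq_one_comm.1 hR, Matrix.mul_one,
    ← Matrix.mulVec_mulVec]

lemma dot₂_rot (S T : Fin n → Fin n → ℝ) : dot₂ (rot₂ R S) (rot₂ R T) = dot₂ S T := by
  rw [dot₂_eq, dot₂_eq]
  show ((R * Matrix.of S * Rᵀ) * (R * Matrix.of T * Rᵀ)ᵀ).trace = _
  have h1 := mul_eq_one_comm.1 hR
  have e : (R * Matrix.of S * Rᵀ) * (R * Matrix.of T * Rᵀ)ᵀ =
      R * (Matrix.of S * (Rᵀ * R) * (Matrix.of T)ᵀ) * Rᵀ := by
    simp only [Matrix.transpose_mul, Matrix.transpose_transpose, Matrix.mul_assoc]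
  rw [e, h1, Matrix.mul_one, Matrix.trace_mul_cycle, h1, Matrix.one_mul]

lemma trace_rot (S : Fin n → Fin n → ℝ) : ∑ i, rot₂ R S i i = ∑ i, S i i := by
  show (R * Matrix.of S * Rᵀ).trace = (Matrix.of S).trace
  rw [Matrix.trace_mul_cycle, mul_eq_one_comm.1 hR, Matrix.one_mul]

variable (J : Jet n)

lemma rotJ_X : (rotJ R J).X = J.X := dot_rot hR _ _

lemma rotJ_P : (rotJ R J).P = J.P := dot_rot hR _ _

lemma rotJ_Y : (rotJ R J).Y = J.Y := dot_rot hR _ _

lemma rotJ_dU : (rotJ R J).dU = rot₂ R J.dU := by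
  have e : Matrix.of J.dU = J.T • (1 : Matrix (Fin n) (Fin n) ℝ) + vecMulVec J.U J.U := by
    ext i j
    simp [Jet.dU, Matrix.one_apply, vecMulVec]
  have e' : Matrix.of (rotJ R J).dU = R * Matrix.of J.dU * Rᵀ := by
    rw [e, Matrix.mul_add, Matrix.add_mul, Matrix.mul_smul, Matrix.smul_mul, Matrix.mul_one, hR,
      Matrix.mul_vecMulVec, Matrix.vecMulVec_mul, ← Matrix.mulVec_transpose,
      Matrix.transpose_transpose]
    ext i j
    simp [Jet.dU, rotJ, rot, Matrix.one_apply, vecMulVec]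
  funext i j
  exact congrFun (congrFun e' i) j

lemma rotJ_dX : (rotJ R J).dX = rot R J.dX := by
  have e : J.dX = (2 : ℝ) • app J.M J.L - app J.A J.L := by funext i; simp [Jet.dX]
  rw [e, rot, Matrix.mulVec_sub, Matrix.mulVec_smul]
  funext i
  simp only [Jet.dX, rotJ, app_rot hR]
  simp [rot]

lemma rotJ_dP : (rotJ R J).dP = rot R J.dP := by
  have e : J.dP = app J.M J.U + J.T • J.L + J.P • J.U - app J.A J.U := by
    funext i; simp [Jet.dP]; ring
  rw [e, rot, Matrix.mulVec_sub, Matrix.mulVec_add, Matrix.mulVec_add, Matrix.mulVec_smul,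
    Matrix.mulVec_smul]
  funext i
  simp only [Jet.dP, rotJ_P hR]
  simp only [rotJ, app_rot hR]
  simp [rot]
  ring

lemma rotJ_dY : (rotJ R J).dY = rot R J.dY := by
  have e : J.dY = (2 * J.T + 2 * J.Y) • J.U - app J.B J.U := by
    funext i; simp [Jet.dY]; ring
  rw [e, rot, Matrix.mulVec_sub, Matrix.mulVec_smul]
  funext i
  simp only [Jet.dY, rotJ_Y hR]
  simp only [rotJ, app_rot hR]
  simp [rot]
  ring

lemma rotJ_w (F : Fld) : (rotJ R J).w F = rot R (J.w F) := by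
  cases F <;> simp only [Jet.w, rotJ, app_rot hR]

lemma rotJ_trDw (F : Fld) : (rotJ R J).trDw F = J.trDw F := by
  cases F <;> simp only [Jet.trDw, rotJ_X hR, rotJ_Y hR, rotJ_dX hR, rotJ_dU hR] <;>
    simp only [rotJ, app_rot hR, dot_rot hR, dot₂_rot hR]

lemma rotJ_Phi (σ : ℝ) (m : ℕ) (F : Fld) (e : ℕ × ℕ × ℕ) :
    (rotJ R J).Phi σ m F e = J.Phi σ m F e := by
  have hd : (rotJ R J).dmono e = rot R (J.dmono e) := by
    have e1 : J.dmono e = ((e.1 : ℝ) * J.X ^ (e.1 - 1) * J.P ^ e.2.1 * J.Y ^ e.2.2) • J.dX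
        + ((e.2.1 : ℝ) * J.X ^ e.1 * J.P ^ (e.2.1 - 1) * J.Y ^ e.2.2) • J.dP
        + ((e.2.2 : ℝ) * J.X ^ e.1 * J.P ^ e.2.1 * J.Y ^ (e.2.2 - 1)) • J.dY := by
      funext i; simp [Jet.dmono]
    rw [e1, rot, Matrix.mulVec_add, Matrix.mulVec_add, Matrix.mulVec_smul, Matrix.mulVec_smul,
      Matrix.mulVec_smul]
    funext i
    simp [Jet.dmono, rotJ_X hR, rotJ_P hR, rotJ_Y hR, rotJ_dX hR, rotJ_dP hR, rotJ_dY hR, rot]
  have hL : (rotJ R J).L = rot R J.L := rfl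
  have hU : (rotJ R J).U = rot R J.U := rfl
  simp only [Jet.Phi, Jet.mono, rotJ_X hR, rotJ_P hR, rotJ_Y hR, rotJ_trDw hR, rotJ_w hR, hd, hL,
    hU, dot_rot hR]

lemma rotJ_valid (h : J.Valid) : (rotJ R J).Valid := by
  have hs : ∀ S : Fin n → Fin n → ℝ, (∀ i j, S i j = S j i) →
      ∀ i j, rot₂ R S i j = rot₂ R S j i := fun S hS i j => by
    have e : (Matrix.of S)ᵀ = Matrix.of S := by ext a b; exact hS b a
    show (R * Matrix.of S * Rᵀ) i j = (R * Matrix.of S * Rᵀ)ᵀ i j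
    rw [Matrix.transpose_mul, Matrix.transpose_mul, Matrix.transpose_transpose, e,
      Matrix.mul_assoc]
  refine ⟨h.T_pos, hs _ h.M_symm, hs _ h.A_symm, hs _ h.B_symm, ?_, ?_, ?_, fun i => ?_⟩
  · rw [rotJ_X hR]; exact (trace_rot hR _).trans h.M_trace
  · rw [rotJ_X hR]; exact (trace_rot hR _).trans h.A_trace
  · rw [rotJ_P hR]; exact (trace_rot hR _).trans h.B_trace
  · show app (rot₂ R J.A) (rot R J.U) i = app (rot₂ R J.B) (rot R J.L) i
    rw [app_rot hR, app_rot hR, funext h.AB]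

omit hR in
/-- Adapted frames exist. -/
theorem exists_adapted {k : ℕ} (J : Jet (k + 2)) (h : J.Valid) :
    ∃ J' : Jet (k + 2), J'.Valid ∧ J'.T = J.T ∧ J'.X = J.X ∧
      (∀ σ m F e, J'.Phi σ m F e = J.Phi σ m F e) ∧
      J'.L 1 = 0 ∧ (∀ r : Fin k, J'.L r.succ.succ = 0) ∧ ∀ r : Fin k, J'.U r.succ.succ = 0 := by
  set f : Fin (k + 2) → EuclideanSpace ℝ (Fin (k + 2)) :=
    fun i => if i = 0 then WithLp.toLp 2 J.L else if i = 1 then WithLp.toLp 2 J.U else 0 with hf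
  set b := InnerProductSpace.gramSchmidtOrthonormalBasis (𝕜 := ℝ) (by simp) f with hb
  set R : Matrix (Fin (k + 2)) (Fin (k + 2)) ℝ := Matrix.of fun i l => b i l with hRdef
  have hR : R * Rᵀ = 1 := by
    ext i j
    have h1 := orthonormal_iff_ite.1 b.orthonormal i j
    rw [PiLp.inner_apply] at h1
    simp only [Matrix.mul_apply, Matrix.transpose_apply, Matrix.one_apply, hRdef, Matrix.of_apply]
    simpa [mul_comm] using h1
  have htri : ∀ {i j : Fin (k + 2)}, i < j → ∑ l, R j l * f i l = 0 := fun {i j} hij => by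
    have h1 := InnerProductSpace.gramSchmidtOrthonormalBasis_inv_triangular (𝕜 := ℝ) (by simp) f hij
    rw [PiLp.inner_apply] at h1
    simpa [hRdef, hb, mul_comm] using h1
  refine ⟨rotJ R J, rotJ_valid hR J h, rfl, rotJ_X hR J, rotJ_Phi hR J, ?_, fun r => ?_, fun r => ?_⟩
  · simpa [rotJ, rot, Matrix.mulVec, dotProduct, hf] using htri (i := 0) (j := 1) (by simp)
  · simpa [rotJ, rot, Matrix.mulVec, dotProduct, hf] using
      htri (i := 0) (j := r.succ.succ) (Fin.succ_pos _)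
  · simpa [rotJ, rot, Matrix.mulVec, dotProduct, hf] using
      htri (i := 1) (j := r.succ.succ) (Fin.succ_lt_succ_iff.2 (Fin.succ_pos r))

end Vale.Agent.P252G.Cert
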