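import Vale.Agent.P252G.Cert.Frame

/-!
Reduction of the pointwise certificate in dimension `n = k + 2` to three conditions in boundedly
many variables: the block of `span(L, U)`, one mixed column, one entry of the complementary block.
-/

open Finset

noncomputable section

namespace Vale.Agent.P252G.Cert

open Vale.Agent.P252G

/-- The frame data: `L = (a,0,…)`, `U = (b,c,0,…)`, `T`. -/
structure Base where
  a : ℝ
  b : ℝ
  c : ℝ
  T : ℝ

/-- The `2 × 2` blocks and the traces of the complementary blocks. -/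
structure Blk where
  m00 : ℝ
  m01 : ℝ
  m11 : ℝ
  mt : ℝ
  a00 : ℝ
  a01 : ℝ
  a11 : ℝ
  at' : ℝ
  b00 : ℝ
  b01 : ℝ
  b11 : ℝ
  bt : ℝ

/-- A column of the mixed blocks. -/
structure Col where
  m0 : ℝ
  m1 : ℝ
  a0 : ℝ
  a1 : ℝ
  b0 : ℝ
  b1 : ℝ

namespace Base

variable (p : Base)

def X : ℝ := p.a ^ 2
def P : ℝ := p.a * p.b
def Y : ℝ := p.b ^ 2 + p.c ^ 2
def mono (e : ℕ × ℕ × ℕ) : ℝ := p.X ^ e.1 * p.P ^ e.2.1 * p.Y ^ e.2.2

/-- gradient of a monomial from the gradients of `X, P, Y` -/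
def dmono (e : ℕ × ℕ × ℕ) (x y z : ℝ) : ℝ :=
  (e.1 : ℝ) * p.X ^ (e.1 - 1) * p.P ^ e.2.1 * p.Y ^ e.2.2 * x
    + (e.2.1 : ℝ) * p.X ^ e.1 * p.P ^ (e.2.1 - 1) * p.Y ^ e.2.2 * y
    + (e.2.2 : ℝ) * p.X ^ e.1 * p.P ^ e.2.1 * p.Y ^ (e.2.2 - 1) * z

variable (v : Blk) (z : Col)

/-- component `0` of the fields -/
def w₀ : Fld → ℝ
  | .l => p.a
  | .u => p.b
  | .ml => p.a * v.m00
  | .mu => p.b * v.m00 + p.c * v.m01
  | .al => p.a * v.a00
  | .au => p.b * v.a00 + p.c * v.a01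
  | .bu => p.b * v.b00 + p.c * v.b01

/-- component `1` of the fields -/
def w₁ : Fld → ℝ
  | .l => 0
  | .u => p.c
  | .ml => p.a * v.m01
  | .mu => p.b * v.m01 + p.c * v.m11
  | .al => p.a * v.a01
  | .au => p.b * v.a01 + p.c * v.a11
  | .bu => p.b * v.b01 + p.c * v.b11

/-- a complementary component of the fields -/
def wc : Fld → ℝ
  | .l => 0
  | .u => 0
  | .ml => p.a * z.m0
  | .mu => p.b * z.m0 + p.c * z.m1
  | .al => p.a * z.a0
  | .au => p.b * z.a0 + p.c * z.a1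
  | .bu => p.b * z.b0 + p.c * z.b1

def dX₀ : ℝ := 2 * (p.a * v.m00) - p.a * v.a00
def dX₁ : ℝ := 2 * (p.a * v.m01) - p.a * v.a01
def dXc : ℝ := 2 * (p.a * z.m0) - p.a * z.a0
def dP₀ : ℝ := p.b * v.m00 + p.c * v.m01 + p.T * p.a + p.b * p.P - (p.b * v.a00 + p.c * v.a01)
def dP₁ : ℝ := p.b * v.m01 + p.c * v.m11 + p.c * p.P - (p.b * v.a01 + p.c * v.a11)
def dPc : ℝ := p.b * z.m0 + p.c * z.m1 - (p.b * z.a0 + p.c * z.a1)
def dY₀ : ℝ := (2 * p.T + 2 * p.Y) * p.b - (p.b * v.b00 + p.c * v.b01)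
def dY₁ : ℝ := (2 * p.T + 2 * p.Y) * p.c - (p.b * v.b01 + p.c * v.b11)
def dYc : ℝ := -(p.b * z.b0 + p.c * z.b1)

/-- trace of the derivative of a field, block part -/
def tr₀ (ν : ℝ) : Fld → ℝ
  | .l => -(ν + 1) * p.X
  | .u => ν * p.T + p.Y
  | .ml => v.m00 * v.m00 + 2 * (v.m01 * v.m01) + v.m11 * v.m11 - (ν + 1) * (p.a * p.dX₀ v)
  | .mu => p.T * (v.m00 + v.m11 + v.mt)
      + (p.b * (p.b * v.m00 + p.c * v.m01) + p.c * (p.b * v.m01 + p.c * v.m11))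
      - (ν + 1) * (p.b * p.dX₀ v + p.c * p.dX₁ v)
  | .al => -(ν + 2) * (p.a * (p.a * v.m00))
      - (v.a00 * v.a00 + 2 * (v.a01 * v.a01) + v.a11 * v.a11)
      + 2 * (v.a00 * v.m00 + 2 * (v.a01 * v.m01) + v.a11 * v.m11)
  | .au => -(ν + 2) * (p.a * (p.b * v.m00 + p.c * v.m01))
      - (v.a00 * v.b00 + 2 * (v.a01 * v.b01) + v.a11 * v.b11)
      + (v.b00 * v.m00 + 2 * (v.b01 * v.m01) + v.b11 * v.m11)
      + (p.T * (v.a00 + v.a11 + v.at')
        + (p.b * (p.b * v.a00 + p.c * v.a01) + p.c * (p.b * v.a01 + p.c * v.a11)))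
  | .bu => -(ν + 2) * (p.b * (p.b * v.m00 + p.c * v.m01) + p.c * (p.b * v.m01 + p.c * v.m11))
      - (v.b00 * v.b00 + 2 * (v.b01 * v.b01) + v.b11 * v.b11)
      + 2 * (p.T * (v.b00 + v.b11 + v.bt)
        + (p.b * (p.b * v.b00 + p.c * v.b01) + p.c * (p.b * v.b01 + p.c * v.b11)))

end Base

/-- trace of the derivative of a field, quadratic part of one entry of a symmetric block -/
def tr₂ (m a b : ℝ) : Fld → ℝ
  | .l => 0
  | .u => 0
  | .ml => m * m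
  | .mu => 0
  | .al => -(a * a) + 2 * (a * m)
  | .au => -(a * b) + b * m
  | .bu => -(b * b)

/-- trace of the derivative of a field, part of one mixed column -/
def tr₁ (z : Col) (F : Fld) : ℝ := 2 * tr₂ z.m0 z.a0 z.b0 F + 2 * tr₂ z.m1 z.a1 z.b1 F

/-- block part of a form -/
def Phi₀ (ν σ : ℝ) (m : ℕ) (p : Base) (v : Blk) (F : Fld) (e : ℕ × ℕ × ℕ) : ℝ :=
  p.mono e * (p.tr₀ v ν F + (ν + 2) * (1 - σ) * (p.a * p.w₀ v F)
      - m * (p.b * p.w₀ v F + p.c * p.w₁ v F))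
    + (p.dmono e (p.dX₀ v) (p.dP₀ v) (p.dY₀ v) * p.w₀ v F
      + p.dmono e (p.dX₁ v) (p.dP₁ v) (p.dY₁ v) * p.w₁ v F)

/-- column part of a form -/
def Phi₁ (p : Base) (z : Col) (F : Fld) (e : ℕ × ℕ × ℕ) : ℝ :=
  p.mono e * tr₁ z F + p.dmono e (p.dXc z) (p.dPc z) (p.dYc z) * p.wc z F

/-- entry part of a form -/
def Phi₂ (p : Base) (m a b : ℝ) (F : Fld) (e : ℕ × ℕ × ℕ) : ℝ := p.mono e * tr₂ m a b F

variable {k : ℕ}

lemma sum_split (f : Fin (k + 2) → ℝ) : ∑ i, f i = f 0 + f 1 + ∑ r : Fin k, f r.succ.succ := by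
  rw [Fin.sum_univ_succ, Fin.sum_univ_succ, Fin.succ_zero_eq_one, ← add_assoc]

section adapted

variable (J : Jet (k + 2))

/-- the frame data of an adapted jet -/
def baseOf : Base := ⟨J.L 0, J.U 0, J.U 1, J.T⟩

/-- the block data of an adapted jet -/
def blkOf : Blk :=
  ⟨J.M 0 0, J.M 0 1, J.M 1 1, ∑ r : Fin k, J.M r.succ.succ r.succ.succ,
   J.A 0 0, J.A 0 1, J.A 1 1, ∑ r : Fin k, J.A r.succ.succ r.succ.succ,
   J.B 0 0, J.B 0 1, J.B 1 1, ∑ r : Fin k, J.B r.succ.succ r.succ.succ⟩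

/-- a column of an adapted jet -/
def colOf (r : Fin k) : Col :=
  ⟨J.M r.succ.succ 0, J.M r.succ.succ 1, J.A r.succ.succ 0, J.A r.succ.succ 1,
   J.B r.succ.succ 0, J.B r.succ.succ 1⟩

variable (h : J.Valid) (hL1 : J.L 1 = 0) (hLr : ∀ r : Fin k, J.L r.succ.succ = 0)
  (hUr : ∀ r : Fin k, J.U r.succ.succ = 0)

include hL1 hLr in
lemma dot_L (v : Fin (k + 2) → ℝ) : dot J.L v = J.L 0 * v 0 := by
  simp [dot, sum_split, hL1, hLr]

include hUr in
lemma dot_U (v : Fin (k + 2) → ℝ) : dot J.U v = J.U 0 * v 0 + J.U 1 * v 1 := by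
  simp [dot, sum_split, hUr]

include hL1 hLr in
lemma app_L (S : Fin (k + 2) → Fin (k + 2) → ℝ) (i : Fin (k + 2)) :
    app S J.L i = J.L 0 * S i 0 := by
  simp [app, sum_split, hL1, hLr, mul_comm]

include hUr in
lemma app_U (S : Fin (k + 2) → Fin (k + 2) → ℝ) (i : Fin (k + 2)) :
    app S J.U i = J.U 0 * S i 0 + J.U 1 * S i 1 := by
  simp [app, sum_split, hUr, mul_comm]

lemma dot₂_split {S R : Fin (k + 2) → Fin (k + 2) → ℝ} (hS : ∀ i j, S i j = S j i)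
    (hR : ∀ i j, R i j = R j i) :
    dot₂ S R = S 0 0 * R 0 0 + 2 * (S 0 1 * R 0 1) + S 1 1 * R 1 1
      + ∑ r : Fin k, (2 * (S r.succ.succ 0 * R r.succ.succ 0)
          + 2 * (S r.succ.succ 1 * R r.succ.succ 1))
      + ∑ r : Fin k, ∑ s : Fin k, S r.succ.succ s.succ.succ * R r.succ.succ s.succ.succ := by
  simp only [dot₂, sum_split, sum_add_distrib, ← mul_sum]
  have e : ∀ j : Fin 2, ∑ r : Fin k, S (Fin.castAdd k j |>.cast (add_comm 2 k)) r.succ.succ *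
      R (Fin.castAdd k j |>.cast (add_comm 2 k)) r.succ.succ =
      ∑ r : Fin k, S r.succ.succ (Fin.castAdd k j |>.cast (add_comm 2 k)) *
        R r.succ.succ (Fin.castAdd k j |>.cast (add_comm 2 k)) :=
    fun j => sum_congr rfl fun r _ => by rw [hS, hR]
  have e0 := e 0
  have e1 := e 1
  simp only [show (Fin.castAdd k (0 : Fin 2)).cast (add_comm 2 k) = (0 : Fin (k + 2)) from rfl,
    show (Fin.castAdd k (1 : Fin 2)).cast (add_comm 2 k) = (1 : Fin (k + 2)) from by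
      ext; simp] at e0 e1
  rw [hS 1 0, hR 1 0, e0, e1]
  ring

include hUr in
lemma dot₂_dU {S : Fin (k + 2) → Fin (k + 2) → ℝ} (hS : ∀ i j, S i j = S j i) :
    dot₂ S J.dU = J.T * (S 0 0 + S 1 1 + ∑ r : Fin k, S r.succ.succ r.succ.succ)
      + (J.U 0 * (J.U 0 * S 0 0 + J.U 1 * S 0 1) + J.U 1 * (J.U 0 * S 0 1 + J.U 1 * S 1 1)) := by
  have e : dot₂ S J.dU = J.T * (∑ i, S i i) + dot J.U (app S J.U) := by
    simp only [dot₂, Jet.dU, dot, app, mul_add, sum_add_distrib, mul_ite, mul_zero, sum_ite_eq,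
      mem_univ, if_true, mul_sum]
    congr 1
    · exact sum_congr rfl fun i _ => by ring
    · exact sum_congr rfl fun i _ => sum_congr rfl fun j _ => by ring
  rw [e, dot_U J hUr, app_U J hUr, app_U J hUr, sum_split, hS 1 0]

include hL1 hLr in
lemma X_eq : J.X = (baseOf J).X := by
  rw [Jet.X, dot_L J hL1 hLr, Base.X, baseOf, sq]

include hL1 hLr in
lemma P_eq : J.P = (baseOf J).P := by rw [Jet.P, dot_L J hL1 hLr]; rfl

include hUr in
lemma Y_eq : J.Y = (baseOf J).Y := by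
  rw [Jet.Y, dot_U J hUr, Base.Y, baseOf]; ring

include h hL1 hLr hUr in
lemma w_zero (F : Fld) : J.w F 0 = (baseOf J).w₀ (blkOf J) F := by
  cases F <;> simp [Jet.w, app_L J hL1 hLr, app_U J hUr, Base.w₀, baseOf, blkOf]

include h hL1 hLr hUr in
lemma w_one (F : Fld) : J.w F 1 = (baseOf J).w₁ (blkOf J) F := by
  cases F <;> simp [Jet.w, app_L J hL1 hLr, app_U J hUr, Base.w₁, baseOf, blkOf, hL1,
    h.M_symm 1 0, h.A_symm 1 0, h.B_symm 1 0]

include hL1 hLr hUr in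
lemma w_col (F : Fld) (r : Fin k) : J.w F r.succ.succ = (baseOf J).wc (colOf J r) F := by
  cases F <;> simp [Jet.w, app_L J hL1 hLr, app_U J hUr, Base.wc, baseOf, colOf, hLr, hUr]

include h hL1 hLr hUr in
lemma dmono_eq (e : ℕ × ℕ × ℕ) :
    J.dmono e 0 = (baseOf J).dmono e ((baseOf J).dX₀ (blkOf J)) ((baseOf J).dP₀ (blkOf J))
        ((baseOf J).dY₀ (blkOf J)) ∧
    J.dmono e 1 = (baseOf J).dmono e ((baseOf J).dX₁ (blkOf J)) ((baseOf J).dP₁ (blkOf J))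
        ((baseOf J).dY₁ (blkOf J)) ∧
    ∀ r : Fin k, J.dmono e r.succ.succ = (baseOf J).dmono e ((baseOf J).dXc (colOf J r))
        ((baseOf J).dPc (colOf J r)) ((baseOf J).dYc (colOf J r)) := by
  refine ⟨?_, ?_, fun r => ?_⟩ <;>
    simp only [Jet.dmono, Jet.dX, Jet.dP, Jet.dY, app_L J hL1 hLr, app_U J hUr, X_eq J hL1 hLr,
      P_eq J hL1 hLr, Y_eq J hUr, hL1, hLr, hUr, h.M_symm 1 0, h.A_symm 1 0, h.B_symm 1 0,
      Base.dmono, Base.dX₀, Base.dX₁, Base.dXc, Base.dP₀, Base.dP₁, Base.dPc, Base.dY₀, Base.dY₁,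
      Base.dYc] <;>
    simp only [baseOf, blkOf, colOf] <;> ring

include h hL1 hLr hUr in
lemma trDw_eq (F : Fld) : J.trDw F = (baseOf J).tr₀ (blkOf J) ((k + 2 : ℕ) : ℝ) F
    + ∑ r : Fin k, tr₁ (colOf J r) F
    + ∑ r : Fin k, ∑ s : Fin k, tr₂ (J.M r.succ.succ s.succ.succ) (J.A r.succ.succ s.succ.succ)
        (J.B r.succ.succ s.succ.succ) F := by
  cases F <;>
    simp only [Jet.trDw, Base.tr₀, Base.dX₀, Base.dX₁, tr₁, tr₂, dot_L J hL1 hLr, dot_U J hUr,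
      dot₂_dU J hUr h.M_symm, dot₂_dU J hUr h.A_symm, dot₂_dU J hUr h.B_symm,
      dot₂_split h.M_symm h.M_symm, dot₂_split h.A_symm h.A_symm, dot₂_split h.A_symm h.M_symm,
      dot₂_split h.A_symm h.B_symm, dot₂_split h.B_symm h.M_symm, dot₂_split h.B_symm h.B_symm,
      Jet.dX, app_L J hL1 hLr, app_U J hUr, X_eq J hL1 hLr, Y_eq J hUr, h.M_symm 1 0,
      h.A_symm 1 0, sum_const_zero, mul_zero, add_zero, sum_add_distrib, ← mul_sum, sum_neg_distrib,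
      mul_add, mul_neg] <;>
    simp only [baseOf, blkOf, colOf] <;> ring

include h hL1 hLr hUr in
/-- A form in an adapted frame. -/
theorem Phi_eq (σ : ℝ) (m : ℕ) (F : Fld) (e : ℕ × ℕ × ℕ) :
    J.Phi σ m F e = Phi₀ ((k + 2 : ℕ) : ℝ) σ m (baseOf J) (blkOf J) F e
      + ∑ r : Fin k, Phi₁ (baseOf J) (colOf J r) F e
      + ∑ r : Fin k, ∑ s : Fin k, Phi₂ (baseOf J) (J.M r.succ.succ s.succ.succ)
          (J.A r.succ.succ s.succ.succ) (J.B r.succ.succ s.succ.succ) F e := by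
  obtain ⟨d0, d1, dc⟩ := dmono_eq J h hL1 hLr hUr e
  have hm : J.mono e = (baseOf J).mono e := by
    simp only [Jet.mono, Base.mono, X_eq J hL1 hLr, P_eq J hL1 hLr, Y_eq J hUr]
  have hd : dot (J.dmono e) (J.w F) = J.dmono e 0 * J.w F 0 + J.dmono e 1 * J.w F 1
      + ∑ r : Fin k, J.dmono e r.succ.succ * J.w F r.succ.succ := sum_split _
  simp only [Jet.Phi, trDw_eq J h hL1 hLr hUr, dot_L J hL1 hLr, dot_U J hUr, hd, d0, d1, dc,
    w_zero J h hL1 hLr hUr, w_one J h hL1 hLr hUr, w_col J hL1 hLr hUr, hm, Phi₀, Phi₁, Phi₂,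
    sum_add_distrib, ← mul_sum]
  simp only [baseOf]
  ring

end adapted

lemma pair_identity (x y : Fin k → ℝ) :
    ∑ r, ∑ s, (x r - x s) * (y r - y s) =
      2 * ((k : ℝ) * ∑ r, x r * y r - (∑ r, x r) * ∑ r, y r) := by
  simp only [sub_mul, mul_sub, sum_sub_distrib, sum_const, card_univ, Fintype.card_fin,
    nsmul_eq_mul, ← mul_sum, ← sum_mul]
  ring

lemma tr₂_pairs (x y z : Fin k → ℝ) (F : Fld) :
    ∑ r, ∑ s, tr₂ (x r - x s) (y r - y s) (z r - z s) F =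
      2 * ((k : ℝ) * ∑ r, tr₂ (x r) (y r) (z r) F - tr₂ (∑ r, x r) (∑ r, y r) (∑ r, z r) F) := by
  cases F <;> simp only [tr₂, sum_add_distrib, sum_neg_distrib, ← mul_sum, pair_identity,
    sum_const_zero] <;> ring

variable {ι : Type} [Fintype ι]

/-- The three conditions of the reduced certificate in dimension `ν = k + 2`. -/
structure RedCert (k : ℕ) (σ : ℝ) (m q : ℕ) (F : ι → Fld) (e : ι → ℕ × ℕ × ℕ) (c : ι → ℝ)
    (ε N : ℝ) : Prop where
  entry : ∀ (p : Base) (x y z : ℝ), 0 < p.T → 0 ≤ ∑ i, c i * Phi₂ p x y z (F i) (e i)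
  column : ∀ (p : Base) (z : Col), 0 < p.T → p.b * z.a0 + p.c * z.a1 = p.a * z.b0 →
    0 ≤ ∑ i, c i * Phi₁ p z (F i) (e i)
  block : ∀ (p : Base) (v : Blk), 0 < p.T →
    v.m00 + v.m11 + v.mt = -(((k + 2 : ℕ) : ℝ) + 1) * p.X →
    v.a00 + v.a11 + v.at' = -(((k + 2 : ℕ) : ℝ) + 2) * p.X →
    v.b00 + v.b11 + v.bt = -(((k + 2 : ℕ) : ℝ) + 2) * p.P →
    p.b * v.a00 + p.c * v.a01 = p.a * v.b00 →
    p.b * v.a01 + p.c * v.a11 = p.a * v.b01 →
    ε * p.X ^ q - N * p.T ^ q ≤ (∑ i, c i * Phi₀ ((k + 2 : ℕ) : ℝ) σ m p v (F i) (e i))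
      + (∑ i, c i * Phi₂ p v.mt v.at' v.bt (F i) (e i)) / k

/-- The pointwise certificate from the reduced one. -/
theorem pointCert_of_red {k : ℕ} (hk : 0 < k) {σ : ℝ} {m q : ℕ} {F : ι → Fld}
    {e : ι → ℕ × ℕ × ℕ} {c : ι → ℝ} {ε N : ℝ} (H : RedCert k σ m q F e c ε N)
    (J : Jet (k + 2)) (hJ : J.Valid) :
    ε * J.X ^ q - N * J.T ^ q ≤ ∑ i, c i * J.Phi σ m (F i) (e i) := by
  obtain ⟨K, hK, hT, hX, hPhi, hL1, hLr, hUr⟩ := exists_adapted J hJ
  rw [← hT, ← hX]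
  simp only [← hPhi, Phi_eq K hK hL1 hLr hUr, mul_add, sum_add_distrib]
  have hT0 : 0 < (baseOf K).T := hK.T_pos
  have hX' : K.X = (baseOf K).X := X_eq K hL1 hLr
  have hblock := H.block (baseOf K) (blkOf K) hT0
    (by rw [← hX']; exact (sum_split _).symm.trans hK.M_trace)
    (by rw [← hX']; exact (sum_split _).symm.trans hK.A_trace)
    (by rw [← P_eq K hL1 hLr]; exact (sum_split _).symm.trans hK.B_trace)
    (by simpa [app_U K hUr, app_L K hL1 hLr, baseOf, blkOf] using hK.AB 0)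
    (by simpa [app_U K hUr, app_L K hL1 hLr, baseOf, blkOf, hK.A_symm 1 0, hK.B_symm 1 0]
      using hK.AB 1)
  rw [← hX', show (baseOf K).T = K.T from rfl] at hblock
  have hcol : 0 ≤ ∑ i, c i * ∑ r : Fin k, Phi₁ (baseOf K) (colOf K r) (F i) (e i) := by
    simp only [mul_sum]
    rw [sum_comm]
    refine sum_nonneg fun r _ => H.column _ _ hT0 ?_
    simpa [app_U K hUr, app_L K hL1 hLr, baseOf, colOf] using hK.AB r.succ.succ
  set p := baseOf K
  set S : ℝ → ℝ → ℝ → ℝ := fun x y z => ∑ i, c i * Phi₂ p x y z (F i) (e i) with hS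
  set x : Fin k → Fin k → ℝ := fun r s => K.M r.succ.succ s.succ.succ
  set y : Fin k → Fin k → ℝ := fun r s => K.A r.succ.succ s.succ.succ
  set z : Fin k → Fin k → ℝ := fun r s => K.B r.succ.succ s.succ.succ
  have hrest : S (∑ r, x r r) (∑ r, y r r) (∑ r, z r r) / k ≤
      ∑ r, ∑ s, S (x r s) (y r s) (z r s) := by
    have h1 : ∑ r, ∑ s, S (x r r - x s s) (y r r - y s s) (z r r - z s s) =
        2 * ((k : ℝ) * ∑ r, S (x r r) (y r r) (z r r)
          - S (∑ r, x r r) (∑ r, y r r) (∑ r, z r r)) := by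
      simp only [hS, Phi₂]
      rw [sum_congr rfl fun r _ => sum_comm, sum_comm]
      simp only [← mul_assoc, ← mul_sum, tr₂_pairs]
      simp only [mul_sum, mul_sub, sum_sub_distrib]
      congr 1
      · rw [sum_comm]
        exact sum_congr rfl fun r _ => sum_congr rfl fun i _ => by ring
      · exact sum_congr rfl fun i _ => by ring
    have h2 : 0 ≤ ∑ r, ∑ s, S (x r r - x s s) (y r r - y s s) (z r r - z s s) :=
      sum_nonneg fun r _ => sum_nonneg fun s _ => H.entry p _ _ _ hT0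
    have h3 : ∑ r, S (x r r) (y r r) (z r r) ≤ ∑ r, ∑ s, S (x r s) (y r s) (z r s) :=
      sum_le_sum fun r _ =>
        single_le_sum (f := fun s => S (x r s) (y r s) (z r s))
          (fun s _ => H.entry p _ _ _ hT0) (mem_univ r)
    rw [h1] at h2
    rw [div_le_iff₀' (by exact_mod_cast hk)]
    exact (by linarith : S (∑ r, x r r) (∑ r, y r r) (∑ r, z r r) ≤
      (k : ℝ) * ∑ r, S (x r r) (y r r) (z r r)).trans
      (mul_le_mul_of_nonneg_left h3 k.cast_nonneg)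
  have h4 : ∑ i, c i * ∑ r : Fin k, ∑ s : Fin k, Phi₂ p (x r s) (y r s) (z r s) (F i) (e i) =
      ∑ r, ∑ s, S (x r s) (y r s) (z r s) := by
    simp only [hS, mul_sum]
    rw [sum_comm]
    exact sum_congr rfl fun r _ => sum_comm
  have e0 : ∑ i, c i * Phi₂ p (blkOf K).mt (blkOf K).at' (blkOf K).bt (F i) (e i) =
      S (∑ r, x r r) (∑ r, y r r) (∑ r, z r r) := rfl
  rw [e0] at hblock
  simp only [x, y, z] at h4 hrest hblock
  linarith

end Vale.Agent.P252G.Cert
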