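import Vale.Agent.P252G.Cert.ReduceW
import Vale.Agent.P252G.DivS.Main

/-!
Reduction of the pointwise certificate with skew companions in dimension `n = k + 2`.
-/

open Finset Matrix

noncomputable section

namespace Vale.Agent.P252G.Cert

open Vale.Agent.P252G

/-- the underlying weighted term -/
def toW (t : STerm) : WTerm := ⟨t.s.F, t.e, t.r, t.ρ⟩

namespace Base

variable (p : Base) (v : Blk)

/-- component `0` of a skew companion -/
def k₀ (F : Fld) : ℝ := p.a * p.w₀ v F * p.b - (p.b * p.w₀ v F + p.c * p.w₁ v F) * p.a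

/-- component `1` of a skew companion -/
def k₁ (F : Fld) : ℝ := p.a * p.w₀ v F * p.c

/-- trace of the derivative of a skew companion, block part -/
def trK₀ (ν : ℝ) (F : Fld) : ℝ :=
  trKQ ν p.T p.X p.P p.Y (fun G => p.a * p.w₀ v G) (fun G => p.b * p.w₀ v G + p.c * p.w₁ v G)
    (fun G H => p.w₀ v G * p.w₀ v H + p.w₁ v G * p.w₁ v H) F

/-- trace of the derivative of a skew companion, column part -/
def trK₁ (z : Col) (ν : ℝ) (F : Fld) : ℝ :=
  trKQ ν p.T p.X p.P p.Y (fun _ => 0) (fun _ => 0) (fun G H => p.wc z G * p.wc z H) F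

end Base

/-- block part of a form -/
def PhiS₀ (ν σ : ℝ) (m : ℕ) (p : Base) (v : Blk) (t : STerm) : ℝ :=
  if t.s.skew then
    (p.mono t.e * (p.trK₀ v ν t.s.F + (ν + 2) * (1 - σ) * (p.a * p.k₀ v t.s.F)
          - m * (p.b * p.k₀ v t.s.F + p.c * p.k₁ v t.s.F))
        + (p.dmono t.e (p.dX₀ v) (p.dP₀ v) (p.dY₀ v) * p.k₀ v t.s.F
          + p.dmono t.e (p.dX₁ v) (p.dP₁ v) (p.dY₁ v) * p.k₁ v t.s.F)) / p.D t.ρ ^ t.r
      - (t.r : ℝ) * p.mono t.e * (p.dD₀ v t.ρ * p.k₀ v t.s.F + p.dD₁ v t.ρ * p.k₁ v t.s.F)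
        / p.D t.ρ ^ (t.r + 1)
  else PhiW₀ ν σ m p v (toW t)

/-- column part of a form -/
def PhiS₁ (ν : ℝ) (p : Base) (z : Col) (t : STerm) : ℝ :=
  if t.s.skew then p.mono t.e * p.trK₁ z ν t.s.F / p.D t.ρ ^ t.r else PhiW₁ p z (toW t)

/-- entry part of a form -/
def PhiS₂ (p : Base) (x y z : ℝ) (t : STerm) : ℝ :=
  if t.s.skew then 0 else PhiW₂ p x y z (toW t)

section rotation

variable {n : ℕ} {R : Matrix (Fin n) (Fin n) ℝ} (hR : R * Rᵀ = 1) (J : Jet n)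
include hR

lemma rotJ_PhiS (σ : ℝ) (m : ℕ) (t : STerm) : (rotJ R J).PhiS σ m t = J.PhiS σ m t := by
  obtain ⟨⟨b, F⟩, e, r, ρ⟩ := t
  cases b
  · exact rotJ_PhiW hR J σ m F e r ρ
  have hd : (rotJ R J).dD ρ = rot R (J.dD ρ) := by
    have e1 : J.dD ρ = J.dX + ρ • J.dY + J.T • J.U := by funext i; simp [Jet.dD]
    rw [e1, rot, Matrix.mulVec_add, Matrix.mulVec_add, Matrix.mulVec_smul, Matrix.mulVec_smul]
    funext i
    simp only [Jet.dD, rotJ_dX hR, rotJ_dY hR]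
    simp [rotJ, rot]
  have hm : (rotJ R J).dmono e = rot R (J.dmono e) := by
    have e1 : J.dmono e = ((e.1 : ℝ) * J.X ^ (e.1 - 1) * J.P ^ e.2.1 * J.Y ^ e.2.2) • J.dX
        + ((e.2.1 : ℝ) * J.X ^ e.1 * J.P ^ (e.2.1 - 1) * J.Y ^ e.2.2) • J.dP
        + ((e.2.2 : ℝ) * J.X ^ e.1 * J.P ^ e.2.1 * J.Y ^ (e.2.2 - 1)) • J.dY := by
      funext i; simp [Jet.dmono]
    rw [e1, rot, Matrix.mulVec_add, Matrix.mulVec_add, Matrix.mulVec_smul, Matrix.mulVec_smul,
      Matrix.mulVec_smul]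
    funext i
    simp [Jet.dmono, rotJ_X hR, rotJ_P hR, rotJ_Y hR, rotJ_dX hR, rotJ_dP hR, rotJ_dY hR, rot]
  have hL : (rotJ R J).L = rot R J.L := rfl
  have hU : (rotJ R J).U = rot R J.U := rfl
  have hT : (rotJ R J).T = J.T := rfl
  have hk : (rotJ R J).wS ⟨true, F⟩ = rot R (J.wS ⟨true, F⟩) := by
    have e1 : J.wS ⟨true, F⟩ = dot J.L (J.w F) • J.U - dot J.U (J.w F) • J.L := by
      funext i; simp [Jet.wS]
    rw [e1, rot, Matrix.mulVec_sub, Matrix.mulVec_smul, Matrix.mulVec_smul]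
    funext i
    simp only [Jet.wS, rotJ_w hR, hL, hU, dot_rot hR]
    simp [rot]
  simp only [Jet.PhiS, Jet.trS, if_true, Jet.trK, Jet.D, Jet.mono, rotJ_X hR, rotJ_P hR,
    rotJ_Y hR, hT, hd, hm, hk, hL, hU, rotJ_w hR, dot_rot hR]

omit hR in
/-- Adapted frames exist, form with skew companions. -/
theorem exists_adaptedS {k : ℕ} (J : Jet (k + 2)) (h : J.Valid) :
    ∃ J' : Jet (k + 2), J'.Valid ∧ J'.T = J.T ∧ J'.X = J.X ∧
      (∀ σ m t, J'.PhiS σ m t = J.PhiS σ m t) ∧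
      J'.L 1 = 0 ∧ (∀ r : Fin k, J'.L r.succ.succ = 0) ∧ ∀ r : Fin k, J'.U r.succ.succ = 0 := by
  set f : Fin (k + 2) → EuclideanSpace ℝ (Fin (k + 2)) :=
    fun i => if i = 0 then WithLp.toLp 2 J.L else if i = 1 then WithLp.toLp 2 J.U else 0 with hf
  set b := InnerProductSpace.gramSchmidtOrthonormalBasis (𝕜 := ℝ) (by simp) f with hb
  set R : Matrix (Fin (k + 2)) (Fin (k + 2)) ℝ := Matrix.of fun i l => b i l with hRdef
  have hR : R * Rᵀ = 1 := by
    ext i j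
    have h1 := orthonormal_iff_ite.1 b.orthonormal i j
    rw [PiLp.inner_apply] at h1
    simp only [Matrix.mul_apply, Matrix.transpose_apply, Matrix.one_apply, hRdef, Matrix.of_apply]
    simpa [mul_comm] using h1
  have htri : ∀ {i j : Fin (k + 2)}, i < j → ∑ l, R j l * f i l = 0 := fun {i j} hij => by
    have h1 := InnerProductSpace.gramSchmidtOrthonormalBasis_inv_triangular (𝕜 := ℝ) (by simp) f hij
    rw [PiLp.inner_apply] at h1
    simpa [hRdef, hb, mul_comm] using h1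
  refine ⟨rotJ R J, rotJ_valid hR J h, rfl, rotJ_X hR J, rotJ_PhiS hR J, ?_, fun r => ?_, fun r => ?_⟩
  · simpa [rotJ, rot, Matrix.mulVec, dotProduct, hf] using htri (i := 0) (j := 1) (by simp)
  · simpa [rotJ, rot, Matrix.mulVec, dotProduct, hf] using
      htri (i := 0) (j := r.succ.succ) (Fin.succ_pos _)
  · simpa [rotJ, rot, Matrix.mulVec, dotProduct, hf] using
      htri (i := 1) (j := r.succ.succ) (Fin.succ_lt_succ_iff.2 (Fin.succ_pos r))

end rotation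

section adapted

variable {k : ℕ} (J : Jet (k + 2)) (h : J.Valid) (hL1 : J.L 1 = 0)
  (hLr : ∀ r : Fin k, J.L r.succ.succ = 0) (hUr : ∀ r : Fin k, J.U r.succ.succ = 0)

include h hL1 hLr hUr in
/-- A form in an adapted frame. -/
theorem PhiS_eq (σ : ℝ) (m : ℕ) (t : STerm) :
    J.PhiS σ m t = PhiS₀ ((k + 2 : ℕ) : ℝ) σ m (baseOf J) (blkOf J) t
      + ∑ r : Fin k, PhiS₁ ((k + 2 : ℕ) : ℝ) (baseOf J) (colOf J r) t
      + ∑ r : Fin k, ∑ s : Fin k, PhiS₂ (baseOf J) (J.M r.succ.succ s.succ.succ)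
          (J.A r.succ.succ s.succ.succ) (J.B r.succ.succ s.succ.succ) t := by
  obtain ⟨⟨b, F⟩, e, r, ρ⟩ := t
  cases b
  · rw [Jet.PhiS_plain, PhiW_eq J h hL1 hLr hUr]
    rfl
  have hD : J.D ρ = (baseOf J).D ρ := by rw [Jet.D, X_eq J hL1 hLr, Y_eq J hUr]; rfl
  have hm : J.mono e = (baseOf J).mono e := by
    simp only [Jet.mono, Base.mono, X_eq J hL1 hLr, P_eq J hL1 hLr, Y_eq J hUr]
  have hLw : ∀ G, dot J.L (J.w G) = (baseOf J).a * (baseOf J).w₀ (blkOf J) G := fun G => by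
    rw [dot_L J hL1 hLr, w_zero J h hL1 hLr hUr]; rfl
  have hUw : ∀ G, dot J.U (J.w G) = (baseOf J).b * (baseOf J).w₀ (blkOf J) G
      + (baseOf J).c * (baseOf J).w₁ (blkOf J) G := fun G => by
    rw [dot_U J hUr, w_zero J h hL1 hLr hUr, w_one J h hL1 hLr hUr]; rfl
  have hk0 : J.wS ⟨true, F⟩ 0 = (baseOf J).k₀ (blkOf J) F := by
    simp only [Jet.wS, if_true, hLw, hUw]; rfl
  have hk1 : J.wS ⟨true, F⟩ 1 = (baseOf J).k₁ (blkOf J) F := by
    simp only [Jet.wS, if_true, hLw, hUw, hL1, mul_zero, sub_zero]; rfl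
  have hkc : ∀ r : Fin k, J.wS ⟨true, F⟩ r.succ.succ = 0 := fun r => by
    simp [Jet.wS, hLr, hUr]
  have hv : ∀ v : Fin (k + 2) → ℝ, dot v (J.wS ⟨true, F⟩) =
      v 0 * (baseOf J).k₀ (blkOf J) F + v 1 * (baseOf J).k₁ (blkOf J) F := fun v => by
    simp [dot, sum_split, hk0, hk1, hkc]
  have htr : J.trK F = (baseOf J).trK₀ (blkOf J) ((k + 2 : ℕ) : ℝ) F
      + ∑ r : Fin k, (baseOf J).trK₁ (colOf J r) ((k + 2 : ℕ) : ℝ) F := by
    have hww : ∀ G H, dot (J.w G) (J.w H) =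
        (baseOf J).w₀ (blkOf J) G * (baseOf J).w₀ (blkOf J) H
          + (baseOf J).w₁ (blkOf J) G * (baseOf J).w₁ (blkOf J) H
          + ∑ r : Fin k, (baseOf J).wc (colOf J r) G * (baseOf J).wc (colOf J r) H := fun G H => by
      rw [show dot (J.w G) (J.w H) = _ from sum_split _]
      simp only [w_zero J h hL1 hLr hUr, w_one J h hL1 hLr hUr, w_col J hL1 hLr hUr]
    cases F <;>
      simp only [Jet.trK, Base.trK₀, Base.trK₁, trKQ, antiQ, hLw, hUw, hww, X_eq J hL1 hLr,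
        P_eq J hL1 hLr, Y_eq J hUr, show J.T = (baseOf J).T from rfl, mul_zero, zero_mul,
        add_zero, zero_add, sub_zero, sum_add_distrib, sum_sub_distrib, ← mul_sum] <;>
      (try simp only [mul_comm ((baseOf J).wc _ .ml) ((baseOf J).wc _ .bu),
        mul_comm ((baseOf J).wc _ .mu) ((baseOf J).wc _ .au),
        mul_comm ((baseOf J).wc _ .mu) ((baseOf J).wc _ .al),
        mul_comm ((baseOf J).wc _ .ml) ((baseOf J).wc _ .au)]) <;>
      (try simp only [sum_const_zero]) <;> ring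
  obtain ⟨d0, d1, -⟩ := dmono_eq J h hL1 hLr hUr e
  have hD0 : J.dD ρ 0 = (baseOf J).dD₀ (blkOf J) ρ ∧ J.dD ρ 1 = (baseOf J).dD₁ (blkOf J) ρ := by
    constructor <;>
      simp only [Jet.dD, Jet.dX, Jet.dY, app_L J hL1 hLr, app_U J hUr, Y_eq J hUr, Base.dD₀,
        Base.dD₁, Base.dX₀, Base.dX₁, Base.dY₀, Base.dY₁, h.M_symm 1 0, h.A_symm 1 0,
        h.B_symm 1 0] <;>
      simp only [baseOf, blkOf] <;> ring
  simp only [Jet.PhiS, Jet.trS, if_true, PhiS₀, PhiS₁, PhiS₂, hD, hm, hv, htr, d0, d1, hD0.1,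
    hD0.2, sum_const_zero, add_zero, ← sum_div, ← mul_sum]
  simp only [baseOf, hL1]
  ring

end adapted

variable {ι : Type} [Fintype ι]

/-- The reduced certificate with skew companions. -/
structure RedCertS (k : ℕ) (σ : ℝ) (m q : ℕ) (t : ι → STerm) (c : ι → ℝ) (ε N : ℝ) : Prop where
  entry : ∀ (p : Base) (x y z : ℝ), 0 < p.T → 0 ≤ ∑ i, c i * PhiS₂ p x y z (t i)
  column : ∀ (p : Base) (z : Col), 0 < p.T → p.b * z.a0 + p.c * z.a1 = p.a * z.b0 →
    0 ≤ ∑ i, c i * PhiS₁ ((k + 2 : ℕ) : ℝ) p z (t i)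
  block : ∀ (p : Base) (v : Blk), 0 < p.T →
    v.m00 + v.m11 + v.mt = -(((k + 2 : ℕ) : ℝ) + 1) * p.X →
    v.a00 + v.a11 + v.at' = -(((k + 2 : ℕ) : ℝ) + 2) * p.X →
    v.b00 + v.b11 + v.bt = -(((k + 2 : ℕ) : ℝ) + 2) * p.P →
    p.b * v.a00 + p.c * v.a01 = p.a * v.b00 →
    p.b * v.a01 + p.c * v.a11 = p.a * v.b01 →
    ε * p.X ^ q - N * p.T ^ q ≤ (∑ i, c i * PhiS₀ ((k + 2 : ℕ) : ℝ) σ m p v (t i))
      + (∑ i, c i * PhiS₂ p v.mt v.at' v.bt (t i)) / k

/-- The pointwise certificate from the reduced one. -/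
theorem pointCertS_of_red {k : ℕ} (hk : 0 < k) {σ : ℝ} {m q : ℕ} {w : ι → STerm}
    {c : ι → ℝ} {ε N : ℝ} (H : RedCertS k σ m q w c ε N)
    (J : Jet (k + 2)) (hJ : J.Valid) :
    ε * J.X ^ q - N * J.T ^ q ≤ ∑ i, c i * J.PhiS σ m (w i) := by
  obtain ⟨K, hK, hT, hX, hPhi, hL1, hLr, hUr⟩ := exists_adaptedS J hJ
  rw [← hT, ← hX]
  have hPT : ∀ i, J.PhiS σ m (w i) = K.PhiS σ m (w i) := fun i => (hPhi _ _ _).symm
  simp only [hPT, PhiS_eq K hK hL1 hLr hUr, mul_add, sum_add_distrib]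
  have hT0 : 0 < (baseOf K).T := hK.T_pos
  have hX' : K.X = (baseOf K).X := X_eq K hL1 hLr
  have hblock := H.block (baseOf K) (blkOf K) hT0
    (by rw [← hX']; exact (sum_split _).symm.trans hK.M_trace)
    (by rw [← hX']; exact (sum_split _).symm.trans hK.A_trace)
    (by rw [← P_eq K hL1 hLr]; exact (sum_split _).symm.trans hK.B_trace)
    (by simpa [app_U K hUr, app_L K hL1 hLr, baseOf, blkOf] using hK.AB 0)
    (by simpa [app_U K hUr, app_L K hL1 hLr, baseOf, blkOf, hK.A_symm 1 0, hK.B_symm 1 0]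
      using hK.AB 1)
  rw [← hX', show (baseOf K).T = K.T from rfl] at hblock
  have hcol : 0 ≤ ∑ i, c i * ∑ r : Fin k,
      PhiS₁ ((k + 2 : ℕ) : ℝ) (baseOf K) (colOf K r) (w i) := by
    simp only [mul_sum]
    rw [sum_comm]
    refine sum_nonneg fun r _ => H.column _ _ hT0 ?_
    simpa [app_U K hUr, app_L K hL1 hLr, baseOf, colOf] using hK.AB r.succ.succ
  set p := baseOf K
  set S : ℝ → ℝ → ℝ → ℝ := fun x y z => ∑ i, c i * PhiS₂ p x y z (w i) with hS
  set x : Fin k → Fin k → ℝ := fun r s => K.M r.succ.succ s.succ.succ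
  set y : Fin k → Fin k → ℝ := fun r s => K.A r.succ.succ s.succ.succ
  set z : Fin k → Fin k → ℝ := fun r s => K.B r.succ.succ s.succ.succ
  have hrest : S (∑ r, x r r) (∑ r, y r r) (∑ r, z r r) / k ≤
      ∑ r, ∑ s, S (x r s) (y r s) (z r s) := by
    have h1 : ∑ r, ∑ s, S (x r r - x s s) (y r r - y s s) (z r r - z s s) =
        2 * ((k : ℝ) * ∑ r, S (x r r) (y r r) (z r r)
          - S (∑ r, x r r) (∑ r, y r r) (∑ r, z r r)) := by
      have e : ∀ i a b d, c i * PhiS₂ p a b d (w i) =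
          (if (w i).s.skew then 0 else c i * p.mono (w i).e / p.D (w i).ρ ^ (w i).r)
            * tr₂ a b d (w i).s.F := fun i a b d => by
        simp only [PhiS₂, PhiW₂, Phi₂, toW]; split <;> ring
      simp only [hS, e]
      rw [sum_congr rfl fun r _ => sum_comm, sum_comm]
      simp only [← mul_assoc, ← mul_sum, tr₂_pairs]
      simp only [mul_sum, mul_sub, sum_sub_distrib]
      congr 1
      · rw [sum_comm]
        exact sum_congr rfl fun r _ => sum_congr rfl fun i _ => by ring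
      · exact sum_congr rfl fun i _ => by ring
    have h2 : 0 ≤ ∑ r, ∑ s, S (x r r - x s s) (y r r - y s s) (z r r - z s s) :=
      sum_nonneg fun r _ => sum_nonneg fun s _ => H.entry p _ _ _ hT0
    have h3 : ∑ r, S (x r r) (y r r) (z r r) ≤ ∑ r, ∑ s, S (x r s) (y r s) (z r s) :=
      sum_le_sum fun r _ =>
        single_le_sum (f := fun s => S (x r s) (y r s) (z r s))
          (fun s _ => H.entry p _ _ _ hT0) (mem_univ r)
    rw [h1] at h2
    rw [div_le_iff₀' (by exact_mod_cast hk)]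
    exact (by linarith : S (∑ r, x r r) (∑ r, y r r) (∑ r, z r r) ≤
      (k : ℝ) * ∑ r, S (x r r) (y r r) (z r r)).trans
      (mul_le_mul_of_nonneg_left h3 k.cast_nonneg)
  have h4 : ∑ i, c i * ∑ r : Fin k, ∑ s : Fin k, PhiS₂ p (x r s) (y r s) (z r s) (w i) =
      ∑ r, ∑ s, S (x r s) (y r s) (z r s) := by
    simp only [hS, mul_sum]
    rw [sum_comm]
    exact sum_congr rfl fun r _ => sum_comm
  have e0 : ∑ i, c i * PhiS₂ p (blkOf K).mt (blkOf K).at' (blkOf K).bt (w i) =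
      S (∑ r, x r r) (∑ r, y r r) (∑ r, z r r) := rfl
  rw [e0] at hblock
  simp only [x, y, z] at h4 hrest hblock
  linarith

end Vale.Agent.P252G.Cert
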