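import Vale.Agent.P252G.Cert.Reduce
import Vale.Agent.P252G.DivW.Spec

/-!
Reduction of the weighted pointwise certificate in dimension `n = k + 2`.
-/

open Finset Matrix

noncomputable section

namespace Vale.Agent.P252G.Cert

open Vale.Agent.P252G

namespace Base

variable (p : Base)

/-- The denominator. -/
def D (ρ : ℝ) : ℝ := p.X + ρ * p.Y + p.T

/-- component `0` of the gradient of the denominator -/
def dD₀ (v : Blk) (ρ : ℝ) : ℝ := p.dX₀ v + ρ * p.dY₀ v + p.T * p.b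

/-- component `1` of the gradient of the denominator -/
def dD₁ (v : Blk) (ρ : ℝ) : ℝ := p.dX₁ v + ρ * p.dY₁ v + p.T * p.c

/-- a complementary component of the gradient of the denominator -/
def dDc (z : Col) (ρ : ℝ) : ℝ := p.dXc z + ρ * p.dYc z

end Base

/-- block part of a weighted form -/
def PhiW₀ (ν σ : ℝ) (m : ℕ) (p : Base) (v : Blk) (t : WTerm) : ℝ :=
  Phi₀ ν σ m p v t.F t.e / p.D t.ρ ^ t.r
    - (t.r : ℝ) * p.mono t.e * (p.dD₀ v t.ρ * p.w₀ v t.F + p.dD₁ v t.ρ * p.w₁ v t.F)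
      / p.D t.ρ ^ (t.r + 1)

/-- column part of a weighted form -/
def PhiW₁ (p : Base) (z : Col) (t : WTerm) : ℝ :=
  Phi₁ p z t.F t.e / p.D t.ρ ^ t.r
    - (t.r : ℝ) * p.mono t.e * (p.dDc z t.ρ * p.wc z t.F) / p.D t.ρ ^ (t.r + 1)

/-- entry part of a weighted form -/
def PhiW₂ (p : Base) (x y z : ℝ) (t : WTerm) : ℝ := Phi₂ p x y z t.F t.e / p.D t.ρ ^ t.r

section rotation

variable {n : ℕ} {R : Matrix (Fin n) (Fin n) ℝ} (hR : R * Rᵀ = 1) (J : Jet n)
include hR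

lemma rotJ_PhiW (σ : ℝ) (m : ℕ) (F : Fld) (e : ℕ × ℕ × ℕ) (r : ℕ) (ρ : ℝ) :
    (rotJ R J).PhiW σ m F e r ρ = J.PhiW σ m F e r ρ := by
  have hd : (rotJ R J).dD ρ = rot R (J.dD ρ) := by
    have e1 : J.dD ρ = J.dX + ρ • J.dY + J.T • J.U := by funext i; simp [Jet.dD]
    rw [e1, rot, Matrix.mulVec_add, Matrix.mulVec_add, Matrix.mulVec_smul, Matrix.mulVec_smul]
    funext i
    simp only [Jet.dD, rotJ_dX hR, rotJ_dY hR]
    simp [rotJ, rot]
  have hT : (rotJ R J).T = J.T := rfl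
  simp only [Jet.PhiW, rotJ_Phi hR, Jet.D, Jet.mono, rotJ_X hR, rotJ_P hR, rotJ_Y hR, hT, hd,
    rotJ_w hR, dot_rot hR]

omit hR in
/-- Adapted frames exist, weighted form. -/
theorem exists_adaptedW {k : ℕ} (J : Jet (k + 2)) (h : J.Valid) :
    ∃ J' : Jet (k + 2), J'.Valid ∧ J'.T = J.T ∧ J'.X = J.X ∧
      (∀ σ m F e r ρ, J'.PhiW σ m F e r ρ = J.PhiW σ m F e r ρ) ∧
      J'.L 1 = 0 ∧ (∀ r : Fin k, J'.L r.succ.succ = 0) ∧ ∀ r : Fin k, J'.U r.succ.succ = 0 := by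
  set f : Fin (k + 2) → EuclideanSpace ℝ (Fin (k + 2)) :=
    fun i => if i = 0 then WithLp.toLp 2 J.L else if i = 1 then WithLp.toLp 2 J.U else 0 with hf
  set b := InnerProductSpace.gramSchmidtOrthonormalBasis (𝕜 := ℝ) (by simp) f with hb
  set R : Matrix (Fin (k + 2)) (Fin (k + 2)) ℝ := Matrix.of fun i l => b i l with hRdef
  have hR : R * Rᵀ = 1 := by
    ext i j
    have h1 := orthonormal_iff_ite.1 b.orthonormal i j
    rw [PiLp.inner_apply] at h1
    simp only [Matrix.mul_apply, Matrix.transpose_apply, Matrix.one_apply, hRdef, Matrix.of_apply]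
    simpa [mul_comm] using h1
  have htri : ∀ {i j : Fin (k + 2)}, i < j → ∑ l, R j l * f i l = 0 := fun {i j} hij => by
    have h1 := InnerProductSpace.gramSchmidtOrthonormalBasis_inv_triangular (𝕜 := ℝ) (by simp) f hij
    rw [PiLp.inner_apply] at h1
    simpa [hRdef, hb, mul_comm] using h1
  refine ⟨rotJ R J, rotJ_valid hR J h, rfl, rotJ_X hR J, rotJ_PhiW hR J, ?_, fun r => ?_, fun r => ?_⟩
  · simpa [rotJ, rot, Matrix.mulVec, dotProduct, hf] using htri (i := 0) (j := 1) (by simp)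
  · simpa [rotJ, rot, Matrix.mulVec, dotProduct, hf] using
      htri (i := 0) (j := r.succ.succ) (Fin.succ_pos _)
  · simpa [rotJ, rot, Matrix.mulVec, dotProduct, hf] using
      htri (i := 1) (j := r.succ.succ) (Fin.succ_lt_succ_iff.2 (Fin.succ_pos r))

end rotation

section adapted

variable {k : ℕ} (J : Jet (k + 2)) (h : J.Valid) (hL1 : J.L 1 = 0)
  (hLr : ∀ r : Fin k, J.L r.succ.succ = 0) (hUr : ∀ r : Fin k, J.U r.succ.succ = 0)

include h hL1 hLr hUr in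
/-- A weighted form in an adapted frame. -/
theorem PhiW_eq (σ : ℝ) (m : ℕ) (t : WTerm) :
    J.PhiT σ m t = PhiW₀ ((k + 2 : ℕ) : ℝ) σ m (baseOf J) (blkOf J) t
      + ∑ r : Fin k, PhiW₁ (baseOf J) (colOf J r) t
      + ∑ r : Fin k, ∑ s : Fin k, PhiW₂ (baseOf J) (J.M r.succ.succ s.succ.succ)
          (J.A r.succ.succ s.succ.succ) (J.B r.succ.succ s.succ.succ) t := by
  have hD : J.D t.ρ = (baseOf J).D t.ρ := by
    rw [Jet.D, X_eq J hL1 hLr, Y_eq J hUr]; rfl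
  have hm : J.mono t.e = (baseOf J).mono t.e := by
    simp only [Jet.mono, Base.mono, X_eq J hL1 hLr, P_eq J hL1 hLr, Y_eq J hUr]
  have hd : dot (J.dD t.ρ) (J.w t.F) =
      (baseOf J).dD₀ (blkOf J) t.ρ * (baseOf J).w₀ (blkOf J) t.F
        + (baseOf J).dD₁ (blkOf J) t.ρ * (baseOf J).w₁ (blkOf J) t.F
        + ∑ r : Fin k, (baseOf J).dDc (colOf J r) t.ρ * (baseOf J).wc (colOf J r) t.F := by
    rw [show dot (J.dD t.ρ) (J.w t.F) = _ from sum_split _, w_zero J h hL1 hLr hUr,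
      w_one J h hL1 hLr hUr]
    simp only [w_col J hL1 hLr hUr, Jet.dD, Jet.dX, Jet.dY, app_L J hL1 hLr, app_U J hUr,
      Y_eq J hUr, hUr, h.M_symm 1 0, h.A_symm 1 0, h.B_symm 1 0, Base.dD₀, Base.dD₁, Base.dDc,
      Base.dX₀, Base.dX₁, Base.dXc, Base.dY₀, Base.dY₁, Base.dYc]
    simp only [baseOf, blkOf, colOf, mul_zero, zero_sub, add_zero]
    ring
  simp only [Jet.PhiT, Jet.PhiW, Phi_eq J h hL1 hLr hUr, hD, hm, hd, PhiW₀, PhiW₁, PhiW₂,
    add_div, sum_div, mul_add, mul_sum, sub_eq_add_neg, sum_add_distrib,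
    sum_neg_distrib]
  ring

end adapted

variable {ι : Type} [Fintype ι]

/-- The reduced weighted certificate. -/
structure RedCertW (k : ℕ) (σ : ℝ) (m q : ℕ) (t : ι → WTerm) (c : ι → ℝ) (ε N : ℝ) : Prop where
  entry : ∀ (p : Base) (x y z : ℝ), 0 < p.T → 0 ≤ ∑ i, c i * PhiW₂ p x y z (t i)
  column : ∀ (p : Base) (z : Col), 0 < p.T → p.b * z.a0 + p.c * z.a1 = p.a * z.b0 →
    0 ≤ ∑ i, c i * PhiW₁ p z (t i)
  block : ∀ (p : Base) (v : Blk), 0 < p.T →
    v.m00 + v.m11 + v.mt = -(((k + 2 : ℕ) : ℝ) + 1) * p.X →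
    v.a00 + v.a11 + v.at' = -(((k + 2 : ℕ) : ℝ) + 2) * p.X →
    v.b00 + v.b11 + v.bt = -(((k + 2 : ℕ) : ℝ) + 2) * p.P →
    p.b * v.a00 + p.c * v.a01 = p.a * v.b00 →
    p.b * v.a01 + p.c * v.a11 = p.a * v.b01 →
    ε * p.X ^ q - N * p.T ^ q ≤ (∑ i, c i * PhiW₀ ((k + 2 : ℕ) : ℝ) σ m p v (t i))
      + (∑ i, c i * PhiW₂ p v.mt v.at' v.bt (t i)) / k

/-- The pointwise certificate from the reduced one. -/
theorem pointCertW_of_red {k : ℕ} (hk : 0 < k) {σ : ℝ} {m q : ℕ} {w : ι → WTerm}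
    {c : ι → ℝ} {ε N : ℝ} (H : RedCertW k σ m q w c ε N)
    (J : Jet (k + 2)) (hJ : J.Valid) :
    ε * J.X ^ q - N * J.T ^ q ≤ ∑ i, c i * J.PhiT σ m (w i) := by
  obtain ⟨K, hK, hT, hX, hPhi, hL1, hLr, hUr⟩ := exists_adaptedW J hJ
  rw [← hT, ← hX]
  have hPT : ∀ i, J.PhiT σ m (w i) = K.PhiT σ m (w i) := fun i => (hPhi _ _ _ _ _ _).symm
  simp only [hPT, PhiW_eq K hK hL1 hLr hUr, mul_add, sum_add_distrib]
  have hT0 : 0 < (baseOf K).T := hK.T_pos
  have hX' : K.X = (baseOf K).X := X_eq K hL1 hLr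
  have hblock := H.block (baseOf K) (blkOf K) hT0
    (by rw [← hX']; exact (sum_split _).symm.trans hK.M_trace)
    (by rw [← hX']; exact (sum_split _).symm.trans hK.A_trace)
    (by rw [← P_eq K hL1 hLr]; exact (sum_split _).symm.trans hK.B_trace)
    (by simpa [app_U K hUr, app_L K hL1 hLr, baseOf, blkOf] using hK.AB 0)
    (by simpa [app_U K hUr, app_L K hL1 hLr, baseOf, blkOf, hK.A_symm 1 0, hK.B_symm 1 0]
      using hK.AB 1)
  rw [← hX', show (baseOf K).T = K.T from rfl] at hblock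
  have hcol : 0 ≤ ∑ i, c i * ∑ r : Fin k, PhiW₁ (baseOf K) (colOf K r) (w i) := by
    simp only [mul_sum]
    rw [sum_comm]
    refine sum_nonneg fun r _ => H.column _ _ hT0 ?_
    simpa [app_U K hUr, app_L K hL1 hLr, baseOf, colOf] using hK.AB r.succ.succ
  set p := baseOf K
  set S : ℝ → ℝ → ℝ → ℝ := fun x y z => ∑ i, c i * PhiW₂ p x y z (w i) with hS
  set x : Fin k → Fin k → ℝ := fun r s => K.M r.succ.succ s.succ.succ
  set y : Fin k → Fin k → ℝ := fun r s => K.A r.succ.succ s.succ.succ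
  set z : Fin k → Fin k → ℝ := fun r s => K.B r.succ.succ s.succ.succ
  have hrest : S (∑ r, x r r) (∑ r, y r r) (∑ r, z r r) / k ≤
      ∑ r, ∑ s, S (x r s) (y r s) (z r s) := by
    have h1 : ∑ r, ∑ s, S (x r r - x s s) (y r r - y s s) (z r r - z s s) =
        2 * ((k : ℝ) * ∑ r, S (x r r) (y r r) (z r r)
          - S (∑ r, x r r) (∑ r, y r r) (∑ r, z r r)) := by
      have e : ∀ i a b d, c i * PhiW₂ p a b d (w i) =
          (c i * p.mono (w i).e / p.D (w i).ρ ^ (w i).r) * tr₂ a b d (w i).F := fun i a b d => by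
        simp only [PhiW₂, Phi₂]; ring
      simp only [hS, e]
      rw [sum_congr rfl fun r _ => sum_comm, sum_comm]
      simp only [← mul_assoc, ← mul_sum, tr₂_pairs]
      simp only [mul_sum, mul_sub, sum_sub_distrib]
      congr 1
      · rw [sum_comm]
        exact sum_congr rfl fun r _ => sum_congr rfl fun i _ => by ring
      · exact sum_congr rfl fun i _ => by ring
    have h2 : 0 ≤ ∑ r, ∑ s, S (x r r - x s s) (y r r - y s s) (z r r - z s s) :=
      sum_nonneg fun r _ => sum_nonneg fun s _ => H.entry p _ _ _ hT0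
    have h3 : ∑ r, S (x r r) (y r r) (z r r) ≤ ∑ r, ∑ s, S (x r s) (y r s) (z r s) :=
      sum_le_sum fun r _ =>
        single_le_sum (f := fun s => S (x r s) (y r s) (z r s))
          (fun s _ => H.entry p _ _ _ hT0) (mem_univ r)
    rw [h1] at h2
    rw [div_le_iff₀' (by exact_mod_cast hk)]
    exact (by linarith : S (∑ r, x r r) (∑ r, y r r) (∑ r, z r r) ≤
      (k : ℝ) * ∑ r, S (x r r) (y r r) (z r r)).trans
      (mul_le_mul_of_nonneg_left h3 k.cast_nonneg)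
  have h4 : ∑ i, c i * ∑ r : Fin k, ∑ s : Fin k, PhiW₂ p (x r s) (y r s) (z r s) (w i) =
      ∑ r, ∑ s, S (x r s) (y r s) (z r s) := by
    simp only [hS, mul_sum]
    rw [sum_comm]
    exact sum_congr rfl fun r _ => sum_comm
  have e0 : ∑ i, c i * PhiW₂ p (blkOf K).mt (blkOf K).at' (blkOf K).bt (w i) =
      S (∑ r, x r r) (∑ r, y r r) (∑ r, z r r) := rfl
  rw [e0] at hblock
  simp only [x, y, z] at h4 hrest hblock
  linarith

end Vale.Agent.P252G.Cert
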